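import Vale.Agent.P366.H474.N.FarA

/-! Kerr-Schild exteriors, all dimensions: far points. -/

open MeasureTheory Metric Filter Topology Set
open scoped ContDiff ENNReal

noncomputable section
namespace Vale.Agent.P366.KSN

open Vale.Agent.P366 (pd E sphM)
open Vale.Agent.P366.H353.N
open Vale.Agent.P366.Kerr (NullCone IsSlice Region Psi pt sp nul ksG indG indK DECat)

variable {n : ℕ} {C : NullCone n} {lam f : E n → ℝ} {V : E (n + 1) → ℝ} {D : Stmt.Exterior n}
  {x y z : E n} {s t : ℝ}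

/-- the gradient as a vector -/
def grv (H : E n → ℝ) (x : E n) : E n := WithLp.toLp 2 fun i => pd i H x

@[simp] lemma grv_apply (H : E n → ℝ) (x : E n) (i : Fin n) : grv H x i = pd i H x := rfl

lemma Y_grv (H : E n → ℝ) (x : E n) (s : ℝ) : Y H x s = grv H x + s • x := by
  ext i
  simp [Y]

lemma abs_coord_le (y : E n) (i : Fin n) : |y i| ≤ ‖y‖ := by
  have := PiLp.norm_apply_le y i
  simpa using this

lemma norm_le_sum_abs (y : E n) : ‖y‖ ≤ ∑ i, |y i| := by
  have h : y = ∑ i, y i • (EuclideanSpace.single i (1 : ℝ) : E n) := by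
    ext j
    simp [Pi.single_apply]
  conv_lhs => rw [h]
  refine (norm_sum_le _ _).trans (Finset.sum_le_sum fun i _ => ?_)
  rw [norm_smul, Real.norm_eq_abs]
  simp

/-- a continuous function is bounded on the unit sphere -/
lemma exists_bdd {g : E n → ℝ} (hg : ContinuousOn g (sphere (0 : E n) 1)) :
    ∃ B : ℝ, 0 ≤ B ∧ ∀ x : E n, ‖x‖ = 1 → |g x| ≤ B := by
  obtain ⟨B, hB⟩ := (isCompact_sphere (0 : E n) 1).exists_bound_of_continuousOn hg
  exact ⟨|B|, abs_nonneg _, fun x hx => (hB x (by simpa using hx)).trans (le_abs_self B)⟩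

/-- bounds for the support function -/
lemma exists_G (C : NullCone n) : ∃ G : ℝ, 1 ≤ G ∧ (∀ x : E n, ‖x‖ = 1 → ‖grv C.H x‖ ≤ G) ∧
    (∀ x : E n, ‖x‖ = 1 → ∀ i j, |H353.N.hs C.H i j x| ≤ G) ∧ ∀ x : E n, ‖x‖ = 1 → C.U x ≤ G := by
  obtain ⟨G1, h1, hG1⟩ := exists_bdd (g := fun x => ∑ i, |pd i C.H x|)
    (continuousOn_finsetSum _ fun i _ => ((smH C).pd i).contOn.abs)
  obtain ⟨G2, h2, hG2⟩ := exists_bdd (g := fun x => ∑ i, ∑ j, |H353.N.hs C.H i j x|)
    (continuousOn_finsetSum _ fun i _ => continuousOn_finsetSum _ fun j _ =>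
      ((smH C).hs i j).contOn.abs)
  obtain ⟨G3, h3, hG3⟩ := exists_bdd (g := fun x => C.U x) (smU C).contOn
  refine ⟨G1 + G2 + G3 + 1, by linarith only [h1, h2, h3], fun x hx => ?_, fun x hx i j => ?_,
    fun x hx => ?_⟩
  · have := (le_abs_self _).trans (hG1 x hx)
    have h4 := norm_le_sum_abs (grv C.H x)
    simp only [grv_apply] at h4
    linarith only [this, h2, h3, h4]
  · have a1 : |H353.N.hs C.H i j x| ≤ ∑ j, |H353.N.hs C.H i j x| :=
      Finset.single_le_sum (f := fun j => |H353.N.hs C.H i j x|) (fun j _ => abs_nonneg _)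
        (Finset.mem_univ j)
    have a2 : ∑ j, |H353.N.hs C.H i j x| ≤ ∑ i, ∑ j, |H353.N.hs C.H i j x| :=
      Finset.single_le_sum (f := fun i => ∑ j, |H353.N.hs C.H i j x|)
        (fun i _ => Finset.sum_nonneg fun j _ => abs_nonneg _) (Finset.mem_univ i)
    have := (le_abs_self _).trans (hG2 x hx)
    linarith only [this, h1, h3, a1, a2]
  · have := (le_abs_self _).trans (hG3 x hx)
    linarith only [this, h1, h2]

/-- coordinates of far points -/
structure FarPt (C : NullCone n) (f : E n → ℝ) (D : Stmt.Exterior n) (G : ℝ) (y x : E n) (s : ℝ) :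
    Prop where
  hx : ‖x‖ = 1
  hU : C.U x < s
  hY : Y C.H x s = y
  hF : 0 < D.F y
  hf : f =ᶠ[𝓝 y] fun _ => 0
  h1 : ‖y - s • x‖ ≤ G
  h2 : |‖y‖ - s| ≤ G
  h3 : ‖y‖ ≤ 2 * s
  h4 : (2 * n + 2) * G ≤ s

lemma exists_farPt (hS : IsSlice C lam V f D) : ∃ G R : ℝ, 1 ≤ G ∧ 1 ≤ R ∧
    (∀ x : E n, ‖x‖ = 1 → ‖grv C.H x‖ ≤ G) ∧
    (∀ x : E n, ‖x‖ = 1 → ∀ i j, |H353.N.hs C.H i j x| ≤ G) ∧
    ∀ y : E n, R < ‖y‖ → ∃ x s, FarPt C f D G y x s := by
  obtain ⟨G, hG1, hG, hH, hU⟩ := exists_G C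
  obtain ⟨R1, hR1⟩ := D.dom.2.2.2
  obtain ⟨R2, hR2⟩ := hS.cpt
  have hn0 : (0 : ℝ) ≤ n := Nat.cast_nonneg n
  have hnG : 0 ≤ 2 * n * G := by positivity
  refine ⟨G, |R1| + |R2| + 2 * n * G + 4 * G, hG1, by
    linarith only [hG1, hnG, abs_nonneg R1, abs_nonneg R2], hG, hH, fun y hy => ?_⟩
  have a1 := le_abs_self R1
  have a2 := le_abs_self R2
  have a3 := abs_nonneg R1
  have a4 := abs_nonneg R2
  have hF : 0 < D.F y := hR1 y (show R1 < ‖y‖ by linarith only [hy, a1, a4, hG1, hnG])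
  obtain ⟨x, s, hx, hs, hxy⟩ := (mem_iff hS).mp hF.le
  have hYg : y - s • x = grv C.H x := by rw [← hxy, Y_grv]; abel
  have h1 : ‖y - s • x‖ ≤ G := by rw [hYg]; exact hG x hx
  have hs0 : 0 < s := (posU' C hx).trans_le hs
  have hsx : ‖s • x‖ = s := norm_smul_unit hx hs0.le
  have h2 : |‖y‖ - s| ≤ G := by
    have := abs_norm_sub_norm_le y (s • x)
    rw [hsx] at this
    exact this.trans h1
  have h2' := abs_le.mp h2
  have hsG : (2 * n + 2) * G < s := by linarith only [h2'.2, hy, a3, a4, hG1]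
  have hsG2 : 2 * G < s := by linarith only [hsG, hnG]
  refine ⟨x, s, hx, (hU x hx).trans_lt (by linarith only [hsG2, hG1]), hxy, hF, ?_, h1, h2, ?_,
    hsG.le⟩
  · have hopen : IsOpen {z : E n | R2 < ‖z‖} := isOpen_lt continuous_const continuous_norm
    filter_upwards [hopen.mem_nhds (show R2 < ‖y‖ by linarith only [hy, a2, a3, hG1, hnG])] with z hz
    exact hR2 z hz
  · linarith only [h2'.2, hsG2, hG1]

/-- the angular coordinates -/
def th (i : Fin n) (y : E n) : ℝ := y i / ‖y‖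

lemma BO_th (i : Fin n) : BO 0 (th i) := by
  refine BO.bdd (K := 1) 0 fun y hy => ?_
  unfold th
  rw [abs_div, abs_norm, div_le_one hy]
  exact abs_coord_le y i

variable (hS : IsSlice C lam V f D)
include hS

lemma BO_n (i : Fin n) : BO 0 (pd i lam) := by
  obtain ⟨G, R, hG1, hR1, hG, hH, hfar⟩ := exists_farPt hS
  refine BO.bdd (K := 1) R fun y hy => ?_
  obtain ⟨x, s, F⟩ := hfar y hy
  rw [← F.hY, pd_lam_Y hS F.hx F.hU.le]
  have := abs_coord_le x i
  rwa [F.hx] at this

/-- `|lam - |y||` is bounded -/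
lemma BO_lam_sub : BO 0 fun y => lam y - ‖y‖ := by
  obtain ⟨G, R, hG1, hR1, hG, hH, hfar⟩ := exists_farPt hS
  refine BO.bdd (K := G) R fun y hy => ?_
  obtain ⟨x, s, F⟩ := hfar y hy
  have h1 := lam_Y hS F.hx F.hU.le
  rw [F.hY] at h1
  rw [h1, abs_sub_comm]
  exact F.h2

lemma BO_n_sub (i : Fin n) : BO 1 fun y => pd i lam y - th i y := by
  obtain ⟨G, R, hG1, hR1, hG, hH, hfar⟩ := exists_farPt hS
  have := BO.of_le (e := fun y => pd i lam y - th i y) (K := 2 * G) (R := R) 1
    (by linarith only [hG1]) fun y hy => by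
    obtain ⟨x, s, F⟩ := hfar y hy
    have hy0 : 0 < ‖y‖ := one_pos.trans_le (hR1.trans hy.le)
    have e1 : pd i lam y = x i := by rw [← F.hY, pd_lam_Y hS F.hx F.hU.le]
    rw [e1, pow_one, le_div_iff₀ hy0]
    unfold th
    have e2 : |x i - y i / ‖y‖| * ‖y‖ = |(‖y‖ - s) * x i - (y - s • x) i| := by
      rw [← abs_of_pos hy0, ← abs_mul, abs_of_pos hy0]
      congr 1
      simp only [PiLp.sub_apply, PiLp.smul_apply, smul_eq_mul]
      field_simp
      ring
    rw [e2]
    have b1 : |(‖y‖ - s) * x i| ≤ G := by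
      rw [abs_mul]
      have := abs_coord_le x i
      rw [F.hx] at this
      calc _ ≤ G * 1 := mul_le_mul F.h2 this (abs_nonneg _) (by linarith only [hG1])
        _ = G := mul_one G
    have b2 := (abs_coord_le (y - s • x) i).trans F.h1
    have b3 := abs_sub ((‖y‖ - s) * x i) ((y - s • x) i)
    linarith only [b1, b2, b3]
  simpa using this

/-- the Hessian of `λ` at far points -/
lemma hs_far {G : ℝ} (hG1 : 1 ≤ G) (hH : ∀ x : E n, ‖x‖ = 1 → ∀ i j, |H353.N.hs C.H i j x| ≤ G)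
    (F : FarPt C f D G y x s) : (∀ i j, |H353.N.hs lam i j y| ≤ 4 * n / s) ∧
      ∀ i j, |s * H353.N.hs lam i j y - pr x i j| ≤ 4 * n / s * G := by
  have hn0 : (0 : ℝ) ≤ n := Nat.cast_nonneg n
  have hnG : 0 ≤ 2 * n * G := by positivity
  have hs0 : 0 < s := by linarith only [F.h4, hG1, hnG]
  have key : ∀ i j, s * H353.N.hs lam i j y =
      pr x i j - ∑ k, H353.N.hs lam i k y * H353.N.hs C.H k j x := by
    intro i j
    have h1 := hs_lam_Y hS F.hx F.hU.le i j
    have h2 := hs_lam_mul_x hS F.hx F.hU.le i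
    rw [F.hY] at h1 h2
    have e : ∑ k, H353.N.hs lam i k y * Ws C.H s x k j =
        ∑ k, H353.N.hs lam i k y * H353.N.hs C.H k j x + s * H353.N.hs lam i j y -
        s * x j * ∑ k, H353.N.hs lam i k y * x k := by
      have e1 : ∑ k, H353.N.hs lam i k y * kd k j = H353.N.hs lam i j y := by simp [kd]
      rw [← e1, Finset.mul_sum, Finset.mul_sum, ← Finset.sum_add_distrib, ← Finset.sum_sub_distrib]
      refine Finset.sum_congr rfl fun k _ => ?_
      unfold Ws pr
      ring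
    rw [e, h2] at h1
    linarith only [h1]
  have hpr : ∀ i j, |pr x i j| ≤ 2 := by
    intro i j
    unfold pr kd
    have b1 := abs_coord_le x i
    have b2 := abs_coord_le x j
    rw [F.hx] at b1 b2
    have b3 : |x i * x j| ≤ 1 := by rw [abs_mul]; exact mul_le_one₀ b1 (abs_nonneg _) b2
    have b4 : |(if i = j then (1 : ℝ) else 0)| ≤ 1 := by split_ifs <;> simp
    have := abs_sub (if i = j then (1 : ℝ) else 0) (x i * x j)
    linarith only [this, b3, b4]
  set μ : Fin n → ℝ := fun i => ∑ k, |H353.N.hs lam i k y| with hμ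
  have hsum : ∀ i j, |∑ k, H353.N.hs lam i k y * H353.N.hs C.H k j x| ≤ μ i * G := by
    intro i j
    refine (Finset.abs_sum_le_sum_abs _ _).trans ?_
    rw [hμ, Finset.sum_mul]
    refine Finset.sum_le_sum fun k _ => ?_
    rw [abs_mul]
    exact mul_le_mul_of_nonneg_left (hH x F.hx k j) (abs_nonneg _)
  have hμ0 : ∀ i, 0 ≤ μ i := fun i => Finset.sum_nonneg fun k _ => abs_nonneg _
  have hμs : ∀ i, s * μ i ≤ 2 * n + n * (μ i * G) := by
    intro i
    have h1 : ∀ j, s * |H353.N.hs lam i j y| ≤ 2 + μ i * G := by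
      intro j
      have e1 : s * |H353.N.hs lam i j y| = |s * H353.N.hs lam i j y| := by
        rw [abs_mul, abs_of_pos hs0]
      rw [e1, key i j]
      exact (abs_sub _ _).trans (add_le_add (hpr i j) (hsum i j))
    have h2 : s * μ i = ∑ j, s * |H353.N.hs lam i j y| := by rw [hμ, Finset.mul_sum]
    rw [h2]
    refine (Finset.sum_le_sum fun j _ => h1 j).trans_eq ?_
    rw [Finset.sum_const, Finset.card_univ, Fintype.card_fin, nsmul_eq_mul]
    ring
  have hμ' : ∀ i, μ i ≤ 4 * n / s := by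
    intro i
    rw [le_div_iff₀ hs0]
    have h1 := hμs i
    have h2 : 2 * n * (μ i * G) ≤ s * μ i := by
      have h3 : 2 * n * G ≤ s := by linarith only [F.h4, hG1]
      have := mul_le_mul_of_nonneg_right h3 (hμ0 i)
      linarith only [this]
    linarith only [h1, h2]
  constructor
  · intro i j
    have h1 : |H353.N.hs lam i j y| ≤ μ i :=
      Finset.single_le_sum (f := fun k => |H353.N.hs lam i k y|) (fun k _ => abs_nonneg _)
        (Finset.mem_univ j)
    exact h1.trans (hμ' i)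
  · intro i j
    have e1 : s * H353.N.hs lam i j y - pr x i j =
        -∑ k, H353.N.hs lam i k y * H353.N.hs C.H k j x := by
      linarith only [key i j]
    rw [e1, abs_neg]
    exact (hsum i j).trans (mul_le_mul_of_nonneg_right (hμ' i) (by linarith only [hG1]))

lemma BO_hs (i j : Fin n) : BO 1 (H353.N.hs lam i j) := by
  obtain ⟨G, R, hG1, hR1, hG, hH, hfar⟩ := exists_farPt hS
  have hn0 : (0 : ℝ) ≤ n := Nat.cast_nonneg n
  have hnG : 0 ≤ 2 * n * G := by positivity
  have := BO.of_le (e := H353.N.hs lam i j) (K := 8 * n) (R := R) 1 (by positivity) fun y hy => by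
    obtain ⟨x, s, F⟩ := hfar y hy
    have hy0 : 0 < ‖y‖ := one_pos.trans_le (hR1.trans hy.le)
    have hs0 : 0 < s := by linarith only [F.h4, hG1, hnG]
    refine ((hs_far hS hG1 hH F).1 i j).trans ?_
    rw [pow_one, div_le_div_iff₀ hs0 hy0]
    have := mul_le_mul_of_nonneg_left F.h3 hn0
    linarith only [this]
  simpa using this

/-- the full comparison of the Hessian of `λ` with that of `|y|` -/
lemma BO_hs_sub (i j : Fin n) :
    BO 2 fun y => H353.N.hs lam i j y - (kd i j - th i y * th j y) / ‖y‖ := by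
  obtain ⟨G, R, hG1, hR1, hG, hH, hfar⟩ := exists_farPt hS
  have hn0 : (0 : ℝ) ≤ n := Nat.cast_nonneg n
  have hnG : 0 ≤ 2 * n * G := by positivity
  -- `|y| * hs` against `pr`
  have h1 : BO 1 fun y => ‖y‖ * H353.N.hs lam i j y - (kd i j - pd i lam y * pd j lam y) := by
    have := BO.of_le (e := fun y => ‖y‖ * H353.N.hs lam i j y -
        (kd i j - pd i lam y * pd j lam y)) (K := 16 * n * G) (R := R) 1 (by positivity)
        fun y hy => by
      obtain ⟨x, s, F⟩ := hfar y hy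
      have hy0 : 0 < ‖y‖ := one_pos.trans_le (hR1.trans hy.le)
      have hs0 : 0 < s := by linarith only [F.h4, hG1, hnG]
      have e1 : ∀ k, pd k lam y = x k := fun k => by rw [← F.hY, pd_lam_Y hS F.hx F.hU.le]
      rw [e1, e1]
      have a1 := (hs_far hS hG1 hH F).1 i j
      have a2 := (hs_far hS hG1 hH F).2 i j
      unfold pr at a2
      have e2 : ‖y‖ * H353.N.hs lam i j y - (kd i j - x i * x j) =
          (s * H353.N.hs lam i j y - (kd i j - x i * x j)) + (‖y‖ - s) * H353.N.hs lam i j y := by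
        ring
      rw [e2, pow_one]
      have a3 : |(‖y‖ - s) * H353.N.hs lam i j y| ≤ G * (4 * n / s) := by
        rw [abs_mul]
        exact mul_le_mul F.h2 a1 (abs_nonneg _) (by linarith only [hG1])
      have a4 : 4 * n / s ≤ 8 * n / ‖y‖ := by
        rw [div_le_div_iff₀ hs0 hy0]
        have := mul_le_mul_of_nonneg_left F.h3 hn0
        linarith only [this]
      have a5 := mul_le_mul_of_nonneg_right a4 (by linarith only [hG1] : (0:ℝ) ≤ G)
      calc _ ≤ 4 * n / s * G + G * (4 * n / s) := (abs_add_le _ _).trans (add_le_add a2 a3)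
        _ = 2 * (4 * n / s * G) := by ring
        _ ≤ 2 * (8 * n / ‖y‖ * G) := by linarith only [a5]
        _ = 16 * n * G / ‖y‖ := by ring
    simpa using this
  have h2 : BO 1 fun y => pd i lam y * pd j lam y - th i y * th j y := by
    have a1 := (BO_n_sub hS i).mulb (BO_n hS j)
    have a2 := (BO_th i).bmul (BO_n_sub hS j)
    exact (a1.add a2).congr (R := 0) fun y _ => by ring
  have h3 := (h1.sub h2).mul (BO.inv_len (n := n))
  have e : (1 : ℝ) + 1 = 2 := by norm_num
  rw [e] at h3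
  refine h3.congr (R := 0) fun y hy => ?_
  have hy0 : ‖y‖ ≠ 0 := ne_of_gt hy
  field_simp
  ring

lemma BO_lap : BO 2 fun y => lap lam y - (n - 1) / ‖y‖ := by
  have h1 : BO 2 fun y => ∑ i, (H353.N.hs lam i i y - (kd i i - th i y * th i y) / ‖y‖) :=
    BO.sum _ fun i => BO_hs_sub hS i i
  refine h1.congr (R := 0) fun y hy => ?_
  have hy0 : ‖y‖ ≠ 0 := ne_of_gt hy
  have e1 : ∑ i, th i y * th i y = 1 := by
    have h2 : ∑ i, y i * y i = ‖y‖ ^ 2 := by
      rw [EuclideanSpace.norm_sq_eq]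
      refine Finset.sum_congr rfl fun i _ => ?_
      rw [Real.norm_eq_abs, sq_abs]
      ring
    unfold th
    have h3 : ∀ i, y i / ‖y‖ * (y i / ‖y‖) = (y i * y i) / ‖y‖ ^ 2 := fun i => by
      field_simp
    simp only [h3, ← Finset.sum_div, h2]
    field_simp
  have e2 : ∑ i : Fin n, (kd i i - th i y * th i y) / ‖y‖ = (n - 1) / ‖y‖ := by
    rw [← Finset.sum_div, Finset.sum_sub_distrib, e1]
    simp [kd]
  rw [Finset.sum_sub_distrib, e2]
  rfl

/-- `lap λ = O(1/r)` -/
lemma BO_lap1 : BO 1 (lap lam) := BO.sum _ fun i => BO_hs hS i i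

end Vale.Agent.P366.KSN
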