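import Vale.Agent.P366.H474.N.FarF

/-! Kerr-Schild exteriors, all dimensions: the fluxes of energy and momentum. -/

open MeasureTheory Metric Filter Topology Set
open scoped ContDiff ENNReal

noncomputable section
namespace Vale.Agent.P366.KSN

open Vale.Agent.P366 (pd E sphM)
open Vale.Agent.P366.H353.N
open Vale.Agent.P366.Kerr (NullCone IsSlice Region Psi pt sp nul ksG indG indK DECat lapse)

variable {n : ℕ} {C : NullCone n} {lam f : E n → ℝ} {V : E (n + 1) → ℝ} {D : Stmt.Exterior n}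
  {x y z : E n} {s t G q R M : ℝ}

lemma sphInt_SI (R : ℝ) (h : E n → ℝ) :
    Stmt.sphInt R h = R ^ (n - 1) * SI (fun x => h (R • x)) := by
  unfold Stmt.sphInt Stmt.sph SI
  rw [Vale.Agent.P366.vol_eq]

lemma omega_om : Stmt.omega n = om n := by
  unfold Stmt.omega
  rw [sphInt_SI, one_pow, one_mul]
  rfl

namespace X5

lemma nm_ne [hn : Fact (3 ≤ n)] : ((n : ℝ) - 1) * om n ≠ 0 := by
  have h3 : (3 : ℝ) ≤ n := by exact_mod_cast hn.out
  exact mul_ne_zero (by linarith only [h3]) om_pos.ne'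

/-- the flux through a coordinate sphere -/
lemma flx_eq [hn : Fact (3 ≤ n)] (W : Fin n → E n → ℝ) (r : ℝ) :
    Stmt.sphInt r (fun y : E n => ∑ i, W i y * (y i / ‖y‖)) =
      ((n : ℝ) - 1) * om n * Stmt.flx W r := by
  unfold Stmt.flx
  rw [omega_om]
  have h := nm_ne (n := n)
  rw [mul_div_cancel₀ _ h]
  rfl

lemma norm_R (hR : 0 < R) (hx : ‖x‖ = 1) : ‖R • x‖ = R := by
  rw [norm_smul, hx, mul_one, Real.norm_eq_abs, abs_of_pos hR]

theorem flux_e [Fact (3 ≤ n)] (hS : IsSlice C lam V f D) (hF : FarD C lam f V D R M)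
    (_ : D.IsAF) {m : ℝ} (hm : D.IsEnergy m) :
    Tendsto (fun r => Stmt.sphInt r fun y : E n => ∑ i, Fe lam (V0 V) i y * (y i / ‖y‖)) atTop
      (𝓝 (((n : ℝ) - 1) * om n * m)) := by
  obtain ⟨G, R0, hG1, hR1, hfar, hV⟩ := exists_farPt' hS hF.smV
  have h1 := Tendsto.const_mul (((n : ℝ) - 1) * om n) hm
  refine h1.congr' ?_
  filter_upwards [eventually_gt_atTop R0] with r hr
  have hr0 : 0 < r := by linarith only [hr, hR1]
  rw [← flx_eq, sphInt_SI, sphInt_SI]
  congr 1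
  refine SI_congr fun x hx => Finset.sum_congr rfl fun i _ => ?_
  have hy : R0 < ‖r • x‖ := by rw [norm_R hr0 hx]; exact hr
  rw [FarPt.energy_field hS (hV _ hy) hfar hy]

/-- continuity of the momentum flux field -/
lemma Pi_cont (hS : IsSlice C lam V f D) (F : FarPt C f D G y x s)
    (hV : ContDiffAt ℝ ∞ V (pt 0 y)) (i j : Fin n) :
    ContinuousAt (Pi lam (V0 V) (Vt V) i j) y := by
  have hlam := hS.smL y F.hF.le
  have cn : ∀ i, ContinuousAt (pd i lam) y := fun i => pd_contAt hlam i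
  have ch : ∀ i j, ContinuousAt (hs lam i j) y := fun i j => hs_contAt hlam i j
  have cv : ContinuousAt (V0 V) y := (V0_cd hV).continuousAt
  have cdv : ∀ i, ContinuousAt (pd i (V0 V)) y := fun i => pd_contAt (V0_cd hV) i
  have ct : ContinuousAt (Vt V) y := (Vt_cd hV).continuousAt
  have cl : ContinuousAt (lap lam) y := tendsto_finsetSum _ fun i _ => ch i i
  have cdn : ContinuousAt (dn lam (V0 V)) y :=
    tendsto_finsetSum _ fun i _ => (cn i).mul (cdv i)
  unfold Pi
  refine ContinuousAt.add (ContinuousAt.add (ContinuousAt.sub ?_ ?_) ?_) ?_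
  · exact ((((cdv i).mul (cn j)).add ((cdv j).mul (cn i))).neg).div_const 2
  · exact cv.mul (ch i j)
  · exact ((ct.mul (cn i)).mul (cn j)).div_const 2
  · exact ((cdn.add (cv.mul cl)).sub (ct.div_const 2)).mul continuousAt_const

lemma comp_cont {h : E n → ℝ} {r : ℝ} (hh : ∀ x : E n, ‖x‖ = 1 → ContinuousAt h (r • x)) :
    ContinuousOn (fun x => h (r • x)) (sphere (0 : E n) 1) := fun x hx =>
  (ContinuousAt.comp (g := h) (f := fun x : E n => r • x) (hh x (by simpa using hx))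
    (continuous_const_smul r).continuousAt).continuousWithinAt

lemma dir_cont (hy : y ≠ 0) (j : Fin n) : ContinuousAt (fun y : E n => y j / ‖y‖) y :=
  ((EuclideanSpace.proj (𝕜 := ℝ) j).continuous.continuousAt).div continuous_norm.continuousAt
    (norm_ne_zero_iff.2 hy)

theorem flux_P [hn : Fact (3 ≤ n)] (hS : IsSlice C lam V f D) (hF : FarD C lam f V D R M)
    (hAF : D.IsAF) {P : Fin n → ℝ} (hP : D.IsMomentum P) (i : Fin n) :
    Tendsto (fun r => Stmt.sphInt r fun y : E n =>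
      ∑ j, Pi lam (V0 V) (Vt V) i j y * (y j / ‖y‖)) atTop
      (𝓝 (((n : ℝ) - 1) * om n * P i)) := by
  obtain ⟨G, R0, hG1, hR1, hfar, hV⟩ := exists_farPt' hS hF.smV
  obtain ⟨q, hq, hv, hdv, -, hK⟩ := exists_order hS hAF
  have h3 : (3 : ℝ) ≤ n := by exact_mod_cast hn.out
  have hq0 : 0 < q := by linarith only [hq, h3]
  have hq2 : (n : ℝ) - 1 < 2 * q + 1 := by linarith only [hq]
  have hE : BO (2 * q + 1) fun y => ∑ j, (Stmt.momT D.g D.K y i j -
      Pi lam (V0 V) (Vt V) i j y) * (y j / ‖y‖) :=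
    BO.sum _ fun j => (BO_momT_sub hS hF.smV hq0 hv hdv hK i j).mulb (BO_th j)
  have h1 := Tendsto.const_mul (((n : ℝ) - 1) * om n) (hP i)
  have h2 := h1.sub (hE.tendsto hq2)
  rw [sub_zero] at h2
  refine h2.congr' ?_
  filter_upwards [eventually_gt_atTop R0] with r hr
  have hr0 : 0 < r := by linarith only [hr, hR1]
  have hy : ∀ x : E n, ‖x‖ = 1 → R0 < ‖r • x‖ := fun x hx => by rw [norm_R hr0 hx]; exact hr
  have hy0 : ∀ x : E n, ‖x‖ = 1 → r • x ≠ 0 := fun x hx =>
    smul_ne_zero hr0.ne' (ne_zero_of_one hx)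
  rw [← flx_eq, sphInt_SI, sphInt_SI, ← mul_sub]
  congr 1
  have ca : ContinuousOn (fun x : E n => (fun y : E n => ∑ j, Stmt.momT D.g D.K y i j *
      (y j / ‖y‖)) (r • x)) (sphere (0 : E n) 1) := comp_cont fun x hx =>
    tendsto_finsetSum _ fun j _ => (FarPt.momT_cont hS (hV _ (hy x hx)) hfar (hy x hx) i j).mul
      (dir_cont (hy0 x hx) j)
  have ce0 : ∀ x : E n, ‖x‖ = 1 → ContinuousAt (fun y : E n => ∑ j, (Stmt.momT D.g D.K y i j -
      Pi lam (V0 V) (Vt V) i j y) * (y j / ‖y‖)) (r • x) := by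
    intro x hx
    obtain ⟨x', s', F⟩ := hfar _ (hy x hx)
    refine tendsto_finsetSum Finset.univ fun j _ => ?_
    exact ((FarPt.momT_cont hS (hV _ (hy x hx)) hfar (hy x hx) i j).sub
      (Pi_cont hS F (hV _ (hy x hx)) i j)).mul (dir_cont (hy0 x hx) j)
  have ce : ContinuousOn (fun x : E n => (fun y : E n => ∑ j, (Stmt.momT D.g D.K y i j -
      Pi lam (V0 V) (Vt V) i j y) * (y j / ‖y‖)) (r • x)) (sphere (0 : E n) 1) := comp_cont ce0
  rw [← SI_sub ca ce]
  refine SI_congr fun x hx => ?_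
  rw [← Finset.sum_sub_distrib]
  exact Finset.sum_congr rfl fun j _ => by ring

end X5

end Vale.Agent.P366.KSN
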