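import Vale.Agent.P366.H474.N.FarE

/-! Kerr-Schild exteriors, all dimensions: the momentum tensor far out. -/

open MeasureTheory Metric Filter Topology Set
open scoped ContDiff ENNReal

noncomputable section
namespace Vale.Agent.P366.KSN

open Vale.Agent.P366 (pd E sphM)
open Vale.Agent.P366.H353.N
open Vale.Agent.P366.Kerr (NullCone IsSlice Region Psi pt sp nul ksG indG indK DECat lapse)
open X5 (dn Fe Pi)

variable {n : ℕ} {C : NullCone n} {lam f : E n → ℝ} {V : E (n + 1) → ℝ} {D : Stmt.Exterior n}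
  {x y z : E n} {s t G q : ℝ}

/-! ### functions of a small quantity -/

section Small

variable {v : E n → ℝ}

lemma BO.half (hq : 0 < q) (hv : BO q v) : ∃ R : ℝ, 1 ≤ R ∧ ∀ y : E n, R < ‖y‖ → |v y| ≤ 1 / 2 :=
  hv.small hq (by norm_num)

lemma BO.inv_one_add (hq : 0 < q) (hv : BO q v) : BO 0 fun y => 1 / (1 + v y) := by
  obtain ⟨R, hR, h⟩ := BO.half hq hv
  refine BO.bdd (K := 2) R fun y hy => ?_
  have h1 := abs_le.1 (h y hy)
  have h2 : (1 : ℝ) / 2 ≤ 1 + v y := by linarith only [h1.1]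
  rw [abs_of_nonneg (by positivity), div_le_iff₀ (by positivity)]
  linarith only [h2]

lemma BO.sqrt_one_add (hq : 0 < q) (hv : BO q v) : BO 0 fun y => √(1 + v y) := by
  obtain ⟨R, hR, h⟩ := BO.half hq hv
  refine BO.bdd (K := 2) R fun y hy => ?_
  have h1 := abs_le.1 (h y hy)
  rw [abs_of_nonneg (Real.sqrt_nonneg _), Real.sqrt_le_left (by norm_num)]
  linarith only [h1.2]

lemma BO.inv_sqrt (hq : 0 < q) (hv : BO q v) : BO 0 fun y => 1 / √(1 + v y) := by
  obtain ⟨R, hR, h⟩ := BO.half hq hv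
  refine BO.bdd (K := 2) R fun y hy => ?_
  have h1 := abs_le.1 (h y hy)
  have h2 : (1 : ℝ) / 2 ≤ √(1 + v y) := Real.le_sqrt_of_sq_le (by nlinarith only [h1.1])
  rw [abs_of_nonneg (by positivity), div_le_iff₀ (by positivity)]
  linarith only [h2]

lemma BO.inv_sqrt_sub (hq : 0 < q) (hv : BO q v) : BO q fun y => 1 / √(1 + v y) - 1 := by
  obtain ⟨R, hR, h⟩ := BO.half hq hv
  refine (hv.cmul 2).le (R := R) fun y hy => ?_
  have h1 := abs_le.1 (h y hy)
  have h0 : (0 : ℝ) < 1 + v y := by linarith only [h1.1]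
  have h2 : (1 : ℝ) / 2 ≤ √(1 + v y) := Real.le_sqrt_of_sq_le (by nlinarith only [h1.1])
  have h3 : √(1 + v y) * √(1 + v y) = 1 + v y := Real.mul_self_sqrt h0.le
  have h4 : 0 < √(1 + v y) := by linarith only [h2]
  have e : 1 / √(1 + v y) - 1 = - v y * (1 / (√(1 + v y) * (1 + √(1 + v y)))) := by
    field_simp
    linear_combination -h3
  rw [e, abs_mul, abs_neg, abs_mul, abs_two, mul_comm (2 : ℝ)]
  refine mul_le_mul_of_nonneg_left ?_ (abs_nonneg _)
  rw [abs_of_nonneg (by positivity), div_le_iff₀ (by positivity)]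
  nlinarith only [h2, h4]

end Small

/-- the far region, with smoothness of `V` -/
lemma exists_farPt' {R' : ℝ} (hS : IsSlice C lam V f D)
    (hV : ∀ y : E n, R' < ‖y‖ → ContDiffAt ℝ ∞ V (pt 0 y)) : ∃ G R : ℝ, 1 ≤ G ∧ 1 ≤ R ∧
    (∀ y : E n, R < ‖y‖ → ∃ x s, FarPt C f D G y x s) ∧
    ∀ y : E n, R < ‖y‖ → ContDiffAt ℝ ∞ V (pt 0 y) := by
  obtain ⟨G, R, hG1, hR1, hG, hH, hfar⟩ := exists_farPt hS
  exact ⟨G, max R R', hG1, hR1.trans (le_max_left _ _), fun y hy =>
    hfar y ((le_max_left _ _).trans_lt hy), fun y hy => hV y ((le_max_right _ _).trans_lt hy)⟩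

/-! ### decay of the time derivative -/

section

variable {R' : ℝ} (hS : IsSlice C lam V f D) (hV : ∀ y : E n, R' < ‖y‖ → ContDiffAt ℝ ∞ V (pt 0 y))
  (hq : 0 < q) (hv : BO q (V0 V)) (hdv : ∀ k, BO (q + 1) (pd k (V0 V)))
  (hK : ∀ i j, BO (q + 1) fun x => D.K x i j)

include hS in
lemma BO_nn (i j : Fin n) : BO 0 fun y => pd i lam y * pd j lam y := by
  have := (BO_n hS i).mul (BO_n hS j)
  rwa [zero_add] at this

include hS in
lemma BO_dn {v : E n → ℝ} {a : ℝ} (hdv : ∀ k, BO a (pd k v)) : BO a (dn lam v) :=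
  BO.sum _ fun i => (BO_n hS i).bmul (hdv i)

include hS in
lemma BO_Knn (hK : ∀ i j, BO (q + 1) fun x => D.K x i j) :
    BO (q + 1) fun y => ∑ i, ∑ j, D.K y i j * (pd i lam y * pd j lam y) :=
  BO.sum _ fun i => BO.sum _ fun j => (hK i j).mulb (BO_nn hS i j)

include hS hV hq hv hdv hK

lemma BO_Vt : BO (q + 1) (Vt V) := by
  obtain ⟨G, R, hG1, hR1, hfar, hV⟩ := exists_farPt' hS hV
  have hdn : BO (q + 1) (dn lam (V0 V)) := BO_dn hS hdv
  have hKn := BO_Knn hS hK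
  have hv0 : BO 0 (V0 V) := hv.mono hq.le
  -- `Vt = (2 √(1 + V) K_nn + 2 V_n + V V_n) / (1 + V)`
  have h1 : BO (q + 1) fun y => (1 / (1 + V0 V y)) * (2 * (√(1 + V0 V y) *
      (∑ i, ∑ j, D.K y i j * (pd i lam y * pd j lam y))) + (2 * dn lam (V0 V) y +
      V0 V y * dn lam (V0 V) y)) :=
    (BO.inv_one_add hq hv).bmul ((((BO.sqrt_one_add hq hv).bmul hKn).cmul 2).add
      ((hdn.cmul 2).add (hv0.bmul hdn)))
  refine h1.congr (R := R) fun y hy => ?_
  obtain ⟨x, s, F⟩ := hfar y hy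
  have hp := F.one_add_pos hS
  have hsq : √(1 + V0 V y) ≠ 0 := (Real.sqrt_pos.2 hp).ne'
  have e : ∑ i, ∑ j, D.K y i j * (pd i lam y * pd j lam y) = 1 / √(1 + V0 V y) *
      ((- dn lam (V0 V) y + Vt V y / 2) - V0 V y * (dn lam (V0 V) y - Vt V y) / 2) := by
    have h2 : ∀ i, ∑ j, D.K y i j * (pd i lam y * pd j lam y) = 1 / √(1 + V0 V y) *
        ((∑ j, K0 lam (V0 V) (Vt V) i j y * (pd i lam y * pd j lam y)) -
          V0 V y * (dn lam (V0 V) y - Vt V y) / 2 * (pd i lam y * pd i lam y) *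
            (∑ j, pd j lam y * pd j lam y)) := by
      intro i
      rw [Finset.mul_sum (s := Finset.univ) (f := fun j => pd j lam y * pd j lam y),
        ← Finset.sum_sub_distrib, Finset.mul_sum]
      refine Finset.sum_congr rfl fun j _ => ?_
      rw [F.K_eq hS (hV y hy)]
      ring
    simp only [h2, F.nn' hS, mul_one]
    rw [← Finset.mul_sum, Finset.sum_sub_distrib, F.K0_nn hS, ← Finset.mul_sum, F.nn' hS, mul_one]
  rw [e]
  have e2 : 2 * (√(1 + V0 V y) * (1 / √(1 + V0 V y) *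
      ((- dn lam (V0 V) y + Vt V y / 2) - V0 V y * (dn lam (V0 V) y - Vt V y) / 2))) =
      2 * ((- dn lam (V0 V) y + Vt V y / 2) - V0 V y * (dn lam (V0 V) y - Vt V y) / 2) := by
    field_simp
  rw [e2]
  have hp' := hp.ne'
  field_simp
  ring

lemma BO_K0 (i j : Fin n) : BO (q + 1) (K0 lam (V0 V) (Vt V) i j) := by
  have ht := BO_Vt hS hV hq hv hdv hK
  have h1 : BO (q + 1) fun y => -(pd i (V0 V) y * pd j lam y + pd j (V0 V) y * pd i lam y) / 2 :=
    (((hdv i).mulb (BO_n hS j)).add ((hdv j).mulb (BO_n hS i))).neg.div_const 2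
  have h2 : BO (q + 1) fun y => V0 V y * hs lam i j y := hv.mul (BO_hs hS i j)
  have h3 : BO (q + 1) fun y => Vt V y * pd i lam y * pd j lam y / 2 :=
    ((ht.mulb (BO_n hS i)).mulb (BO_n hS j)).div_const 2
  exact (h1.sub h2).add h3

/-- `K` against its linear part -/
lemma BO_K_sub (i j : Fin n) :
    BO (2 * q + 1) fun y => D.K y i j - K0 lam (V0 V) (Vt V) i j y := by
  have ht := BO_Vt hS hV hq hv hdv hK
  have hK0 := BO_K0 hS hV hq hv hdv hK i j
  obtain ⟨G, R, hG1, hR1, hfar, hV⟩ := exists_farPt' hS hV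
  have hdn : BO (q + 1) (dn lam (V0 V)) := BO_dn hS hdv
  have h1 : BO (q + (q + 1)) fun y => (1 / √(1 + V0 V y) - 1) * K0 lam (V0 V) (Vt V) i j y :=
    (BO.inv_sqrt_sub hq hv).mul hK0
  have h2 : BO (q + (q + 1)) fun y => 1 / √(1 + V0 V y) *
      ((V0 V y * (dn lam (V0 V) y - Vt V y)) / 2 * (pd i lam y * pd j lam y)) :=
    (BO.inv_sqrt hq hv).bmul (((hv.mul (hdn.sub ht)).div_const 2).mulb (BO_nn hS i j))
  have e : q + (q + 1) = 2 * q + 1 := by ring
  rw [e] at h1 h2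
  refine (h1.sub h2).congr (R := R) fun y hy => ?_
  obtain ⟨x, s, F⟩ := hfar y hy
  rw [F.K_eq hS (hV y hy)]
  ring

/-- the momentum tensor against its linear part -/
theorem BO_momT_sub (i j : Fin n) :
    BO (2 * q + 1) fun y => Stmt.momT D.g D.K y i j - Pi lam (V0 V) (Vt V) i j y := by
  obtain ⟨G, R, hG1, hR1, hG, hH, hfar⟩ := exists_farPt hS
  have hKs := BO_K_sub hS hV hq hv hdv hK
  have hKn := BO_Knn hS hK
  have h1 : BO (2 * q + 1) fun y => (∑ k, (D.K y k k - K0 lam (V0 V) (Vt V) k k y)) * kd i j :=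
    (BO.sum _ fun k => hKs k k).mulb (BO.const _)
  have e : q + (q + 1) = 2 * q + 1 := by ring
  have h2 : BO (2 * q + 1) fun y => (1 / (1 + V0 V y)) * (V0 V y *
      ∑ i, ∑ j, D.K y i j * (pd i lam y * pd j lam y)) := by
    rw [← e]
    exact (BO.inv_one_add hq hv).bmul (hv.mul hKn)
  have hq1 : BO (q + 1) fun y => ∑ k, D.K y k k := BO.sum _ fun k => hK k k
  have h2' : BO (q + 1) fun y => (1 / (1 + V0 V y)) * (V0 V y *
      ∑ i, ∑ j, D.K y i j * (pd i lam y * pd j lam y)) := h2.mono (by linarith only [hq])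
  have h3 : BO (2 * q + 1) fun y => (V0 V y * ((∑ k, D.K y k k) - (1 / (1 + V0 V y)) * (V0 V y *
      ∑ i, ∑ j, D.K y i j * (pd i lam y * pd j lam y)))) * (pd i lam y * pd j lam y) := by
    rw [← e]
    exact (hv.mul (hq1.sub h2')).mulb (BO_nn hS i j)
  have h4 := (((hKs i j).sub h1).add (h2.mulb (BO.const (kd i j)))).sub h3
  refine h4.congr (R := R) fun y hy => ?_
  obtain ⟨x, s, F⟩ := hfar y hy
  unfold Stmt.momT
  rw [F.tr_eq hS, F.Pi_eq hS, F.g hS, Finset.sum_sub_distrib]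
  ring

end

/-! ### continuity of the momentum tensor -/

lemma FarPt.momT_cont (hS : IsSlice C lam V f D) (hV : ContDiffAt ℝ ∞ V (pt 0 y))
    {R : ℝ} (hfar : ∀ y : E n, R < ‖y‖ → ∃ x s, FarPt C f D G y x s) (hy : R < ‖y‖)
    (i j : Fin n) : ContinuousAt (fun y => Stmt.momT D.g D.K y i j) y := by
  obtain ⟨x, s, F⟩ := hfar y hy
  have h1 : (fun y => Stmt.momT D.g D.K y i j) =ᶠ[𝓝 y] fun y => D.K y i j - (∑ i, D.K y i i -
      V0 V y / (1 + V0 V y) * ∑ i, ∑ j, D.K y i j * (pd i lam y * pd j lam y)) * D.g y i j := by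
    filter_upwards [far_open hy] with z hz
    obtain ⟨x', s', F'⟩ := hfar z hz
    unfold Stmt.momT
    rw [F'.tr_eq hS]
  have hlam := hS.smL y F.hF.le
  have cK : ∀ i j, ContinuousAt (fun y => D.K y i j) y := fun i j =>
    (D.smooth i j).2.continuous.continuousAt
  have cg : ∀ i j, ContinuousAt (fun y => D.g y i j) y := fun i j =>
    (D.smooth i j).1.continuous.continuousAt
  have cn : ∀ i, ContinuousAt (pd i lam) y := fun i => pd_contAt hlam i
  have cV : ContinuousAt (V0 V) y := (V0_cd hV).continuousAt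
  refine ContinuousAt.congr ?_ h1.symm
  refine (cK i j).sub (ContinuousAt.mul (ContinuousAt.sub ?_ (ContinuousAt.mul ?_ ?_)) (cg i j))
  · exact tendsto_finsetSum _ fun i _ => cK i i
  · exact cV.div (continuousAt_const.add cV) (F.one_add_pos hS).ne'
  · exact tendsto_finsetSum _ fun i _ => tendsto_finsetSum _ fun j _ =>
      (cK i j).mul ((cn i).mul (cn j))

end Vale.Agent.P366.KSN
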