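import Vale.Agent.P366.H222.N.X0e

/-! Kerr-Schild exteriors, all dimensions: orders of decay at infinity. -/

open MeasureTheory Metric Filter Topology Set
open scoped ContDiff ENNReal

noncomputable section
namespace Vale.Agent.P366.KSN

open Vale.Agent.P366 (pd E sphM)
open Vale.Agent.P366.H353.N

variable {n : ℕ}

/-- `e = O(r ^ (-a))` -/
def BO (a : ℝ) (e : E n → ℝ) : Prop :=
  ∃ C R : ℝ, 0 ≤ C ∧ 1 ≤ R ∧ ∀ y : E n, R < ‖y‖ → |e y| ≤ C * ‖y‖ ^ (-a)

namespace BO

variable {a b : ℝ} {e e' : E n → ℝ}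

lemma of_bigO (h : Stmt.BigO a e) : BO a e := by
  obtain ⟨C, R, h⟩ := h
  refine ⟨|C|, max R 1, abs_nonneg _, le_max_right _ _, fun y hy => ?_⟩
  refine (h y ((le_max_left _ _).trans_lt hy)).trans ?_
  exact mul_le_mul_of_nonneg_right (le_abs_self C) (Real.rpow_nonneg (norm_nonneg _) _)

lemma congr (h : BO a e) {R : ℝ} (he : ∀ y : E n, R < ‖y‖ → e' y = e y) : BO a e' := by
  obtain ⟨C, R', hC, hR, h⟩ := h
  refine ⟨C, max R R', hC, hR.trans (le_max_right _ _), fun y hy => ?_⟩
  rw [he y ((le_max_left _ _).trans_lt hy)]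
  exact h y ((le_max_right _ _).trans_lt hy)

lemma le (h : BO a e) {R : ℝ} (he : ∀ y : E n, R < ‖y‖ → |e' y| ≤ |e y|) : BO a e' := by
  obtain ⟨C, R', hC, hR, h⟩ := h
  refine ⟨C, max R R', hC, hR.trans (le_max_right _ _), fun y hy => ?_⟩
  exact (he y ((le_max_left _ _).trans_lt hy)).trans (h y ((le_max_right _ _).trans_lt hy))

lemma mono (h : BO a e) (hb : b ≤ a) : BO b e := by
  obtain ⟨C, R, hC, hR, h⟩ := h
  refine ⟨C, R, hC, hR, fun y hy => (h y hy).trans ?_⟩
  refine mul_le_mul_of_nonneg_left ?_ hC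
  exact Real.rpow_le_rpow_of_exponent_le (hR.trans hy.le) (by linarith only [hb])

lemma add (h : BO a e) (h' : BO a e') : BO a fun y => e y + e' y := by
  obtain ⟨C, R, hC, hR, h⟩ := h
  obtain ⟨C', R', hC', hR', h'⟩ := h'
  refine ⟨C + C', max R R', add_nonneg hC hC', hR.trans (le_max_left _ _), fun y hy => ?_⟩
  rw [add_mul]
  exact (abs_add_le _ _).trans (add_le_add (h y ((le_max_left _ _).trans_lt hy))
    (h' y ((le_max_right _ _).trans_lt hy)))

lemma neg (h : BO a e) : BO a fun y => - e y :=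
  h.le (R := 0) fun y _ => by rw [abs_neg]

lemma sub (h : BO a e) (h' : BO a e') : BO a fun y => e y - e' y :=
  (h.add h'.neg).congr (R := 0) fun y _ => by ring

lemma mul (h : BO a e) (h' : BO b e') : BO (a + b) fun y => e y * e' y := by
  obtain ⟨C, R, hC, hR, h⟩ := h
  obtain ⟨C', R', hC', hR', h'⟩ := h'
  refine ⟨C * C', max R R', mul_nonneg hC hC', hR.trans (le_max_left _ _), fun y hy => ?_⟩
  have hy0 : 0 < ‖y‖ := one_pos.trans_le (hR.trans ((le_max_left _ _).trans hy.le))
  have e1 : C * C' * ‖y‖ ^ (-(a + b)) = C * ‖y‖ ^ (-a) * (C' * ‖y‖ ^ (-b)) := by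
    rw [neg_add, Real.rpow_add hy0]; ring
  rw [e1, abs_mul]
  exact mul_le_mul (h y ((le_max_left _ _).trans_lt hy)) (h' y ((le_max_right _ _).trans_lt hy))
    (abs_nonneg _) (mul_nonneg hC (Real.rpow_nonneg (norm_nonneg _) _))

lemma bdd {K : ℝ} (R : ℝ) (h : ∀ y : E n, R < ‖y‖ → |e y| ≤ K) : BO 0 e := by
  refine ⟨|K|, max R 1, abs_nonneg _, le_max_right _ _, fun y hy => ?_⟩
  rw [neg_zero, Real.rpow_zero, mul_one]
  exact (h y ((le_max_left _ _).trans_lt hy)).trans (le_abs_self K)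

lemma const (c : ℝ) : BO 0 fun _ : E n => c := bdd 0 fun _ _ => le_rfl

lemma cmul (c : ℝ) (h : BO a e) : BO a fun y => c * e y := by
  have := (const c).mul h
  rwa [zero_add] at this

lemma div_const (c : ℝ) (h : BO a e) : BO a fun y => e y / c :=
  (h.cmul c⁻¹).congr (R := 0) fun y _ => by rw [div_eq_mul_inv, mul_comm]

lemma bmul (h' : BO 0 e') (h : BO a e) : BO a fun y => e' y * e y := by
  have := h'.mul h
  rwa [zero_add] at this

lemma mulb (h : BO a e) (h' : BO 0 e') : BO a fun y => e y * e' y := by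
  have := h.mul h'
  rwa [add_zero] at this

lemma sum {ι : Type*} (s : Finset ι) {e : ι → E n → ℝ} (h : ∀ i, BO a (e i)) :
    BO a fun y => ∑ i ∈ s, e i y := by
  classical
  induction s using Finset.induction_on with
  | empty =>
    refine ⟨0, 1, le_rfl, le_rfl, fun y _ => ?_⟩
    simp
  | insert i s hi ih =>
    simp only [Finset.sum_insert hi]
    exact (h i).add ih

lemma of_le {K R : ℝ} (m : ℕ) (hK : 0 ≤ K) (h : ∀ y : E n, R < ‖y‖ → |e y| ≤ K / ‖y‖ ^ m) :
    BO m e := by
  refine ⟨K, max R 1, hK, le_max_right _ _, fun y hy => ?_⟩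
  refine (h y ((le_max_left _ _).trans_lt hy)).trans_eq ?_
  rw [Real.rpow_neg (norm_nonneg _), Real.rpow_natCast]
  rfl

lemma inv_len : BO 1 fun y : E n => 1 / ‖y‖ := by
  have := of_le (e := fun y : E n => 1 / ‖y‖) (K := 1) (R := 0) 1 zero_le_one fun y hy => by
    rw [pow_one, abs_of_nonneg (by positivity)]
  simpa using this

/-- a function of positive order is small far out -/
lemma small (h : BO a e) (ha : 0 < a) {ε : ℝ} (hε : 0 < ε) :
    ∃ R : ℝ, 1 ≤ R ∧ ∀ y : E n, R < ‖y‖ → |e y| ≤ ε := by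
  obtain ⟨C, R0, hC, hR0, h⟩ := h
  have hlim : Tendsto (fun R : ℝ => C * R ^ (-a)) atTop (𝓝 0) := by
    have := (tendsto_rpow_neg_atTop ha).const_mul C
    rwa [mul_zero] at this
  obtain ⟨R1, hR1⟩ := (hlim.eventually (gt_mem_nhds hε)).exists_forall_of_atTop
  refine ⟨max R0 R1, hR0.trans (le_max_left _ _), fun y hy => ?_⟩
  exact (h y ((le_max_left _ _).trans_lt hy)).trans (hR1 _ ((le_max_right _ _).trans hy.le)).le

/-- error terms vanish in the limit -/
lemma tendsto (h : BO a e) (ha : (n : ℝ) - 1 < a) :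
    Tendsto (fun R : ℝ => R ^ (n - 1) * SI (fun θ => e (R • θ))) atTop (𝓝 0) := by
  obtain ⟨C, R0, hC, hR0, h⟩ := h
  have hexp : ((n - 1 : ℕ) : ℝ) < a ∨ n = 0 := by
    rcases Nat.eq_zero_or_pos n with h0 | h0
    · exact Or.inr h0
    · left
      rw [Nat.cast_sub h0]
      simpa using ha
  rcases hexp with hexp | h0
  · have hb : ∀ R : ℝ, R0 < R → |R ^ (n - 1) * SI (fun θ => e (R • θ))| ≤
        om n * C * R ^ (-(a - ((n - 1 : ℕ) : ℝ))) := by
      intro R hR
      have hRp : 0 < R := one_pos.trans_le (hR0.trans hR.le)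
      have h1 : ‖∫ θ : sphere (0 : E n) 1, e (R • (θ : E n)) ∂(sphM n)‖ ≤
          C * R ^ (-a) * (sphM n).real univ := by
        refine norm_integral_le_of_norm_le_const (Eventually.of_forall fun θ => ?_)
        have hn : ‖R • (θ : E n)‖ = R := Vale.Agent.P366.norm_smul_sph hRp.le θ
        have := h (R • (θ : E n)) (by rw [hn]; exact hR)
        rwa [hn] at this
      rw [sphM_univ, Real.norm_eq_abs] at h1
      rw [abs_mul, abs_of_nonneg (by positivity : (0:ℝ) ≤ R ^ (n - 1))]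
      have h3 : R ^ (n - 1) * R ^ (-a) = R ^ (-(a - ((n - 1 : ℕ) : ℝ))) := by
        rw [← Real.rpow_natCast, ← Real.rpow_add hRp]
        congr 1
        ring
      calc R ^ (n - 1) * |SI (fun θ => e (R • θ))| ≤ R ^ (n - 1) * (C * R ^ (-a) * om n) :=
            mul_le_mul_of_nonneg_left h1 (by positivity)
        _ = om n * C * (R ^ (n - 1) * R ^ (-a)) := by ring
        _ = _ := by rw [h3]
    have hlim : Tendsto (fun R : ℝ => om n * C * R ^ (-(a - ((n - 1 : ℕ) : ℝ)))) atTop (𝓝 0) := by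
      have := (tendsto_rpow_neg_atTop (sub_pos.mpr hexp)).const_mul (om n * C)
      rwa [mul_zero] at this
    rw [tendsto_zero_iff_abs_tendsto_zero]
    refine squeeze_zero' (Eventually.of_forall fun _ => abs_nonneg _) ?_ hlim
    filter_upwards [eventually_gt_atTop R0] with R hR using hb R hR
  · subst h0
    have : ∀ R : ℝ, R ^ (0 - 1) * SI (n := 0) (fun θ => e (R • θ)) = 0 := by
      intro R
      have : SI (n := 0) (fun θ => e (R • θ)) = 0 := by
        unfold SI
        have hE : IsEmpty (sphere (0 : E 0) 1) := by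
          refine ⟨fun θ => ?_⟩
          have h1 := θ.2
          have h2 : (θ : E 0) = 0 := Subsingleton.elim _ _
          rw [h2] at h1
          simp at h1
        rw [integral_of_isEmpty]
      rw [this, mul_zero]
    simp only [this]
    exact tendsto_const_nhds

end BO

end Vale.Agent.P366.KSN
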