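import Vale.Agent.P366.H474.N.FarB
import Vale.Agent.P366.H896.N.X5Defs

/-! Kerr-Schild exteriors, all dimensions: decay of `V`. -/

open MeasureTheory Metric Filter Topology Set
open scoped ContDiff ENNReal

noncomputable section
namespace Vale.Agent.P366.KSN

open Vale.Agent.P366 (pd E sphM)
open Vale.Agent.P366.H353.N
open Vale.Agent.P366.Kerr (NullCone IsSlice Region Psi pt sp nul ksG indG indK DECat)

variable {n : ℕ} {C : NullCone n} {lam f : E n → ℝ} {V : E (n + 1) → ℝ} {D : Stmt.Exterior n}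
  {x y z : E n} {s t G : ℝ}

/-- the slice `t = 0` as an affine map -/
lemma pt0_contDiff : ContDiff ℝ ∞ (fun y : E n => pt 0 y) := by
  rw [contDiff_euclidean]
  intro a
  refine Fin.cases ?_ (fun i => ?_) a
  · simpa [pt] using (contDiff_const : ContDiff ℝ ∞ fun _ : E n => (0 : ℝ))
  · have : (fun y : E n => pt 0 y i.succ) = fun y : E n => y i := rfl
    rw [this]
    exact (EuclideanSpace.proj (𝕜 := ℝ) i).contDiff

lemma V0_cd (h : ContDiffAt ℝ ∞ V (pt 0 y)) : ContDiffAt ℝ ∞ (V0 V) y :=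
  ContDiffAt.comp (g := V) (f := fun y : E n => pt 0 y) y h pt0_contDiff.contDiffAt

lemma Vt_cd (h : ContDiffAt ℝ ∞ V (pt 0 y)) : ContDiffAt ℝ ∞ (Vt V) y :=
  ContDiffAt.comp (g := pd 0 V) (f := fun y : E n => pt 0 y) y (pd_contDiffAt h 0)
    pt0_contDiff.contDiffAt

/-- spatial derivatives at `t = 0` -/
lemma pd_V0 (h : DifferentiableAt ℝ V (pt 0 y)) (i : Fin n) :
    pd i (V0 V) y = pd i.succ V (pt 0 y) := by
  have h0 : DifferentiableAt ℝ (V0 V) y :=
    DifferentiableAt.comp (g := V) (f := fun y : E n => pt 0 y) y h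
      (pt0_contDiff.differentiable (by simp)).differentiableAt
  rw [← Vale.Agent.P366.Bridge.pd_eq h0, ← Vale.Agent.P366.Bridge.pd_eq h]
  show deriv (fun t : ℝ => V (pt 0 (y + t • EuclideanSpace.single i (1 : ℝ)))) 0 =
    deriv (fun t : ℝ => V (pt 0 y + t • EuclideanSpace.single i.succ (1 : ℝ))) 0
  congr 1
  funext t
  congr 1
  ext a
  refine Fin.cases ?_ (fun j => ?_) a
  · simp [pt]
  · simp [pt]

lemma FarPt.mem (hS : IsSlice C lam V f D) (F : FarPt C f D G y x s) :
    pt 0 y ∈ Region lam f D := by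
  have h := mem_region hS F.hF.le
  rwa [F.hf.self_of_nhds] at h

lemma FarPt.cdV (hS : IsSlice C lam V f D) (hV : ∀ p ∈ Region lam f D, ContDiffAt ℝ ∞ V p)
    (F : FarPt C f D G y x s) : ContDiffAt ℝ ∞ (V0 V) y := V0_cd (hV _ (F.mem hS))

lemma FarPt.pdf (F : FarPt C f D G y x s) (i : Fin n) : pd i f y = 0 := by
  rw [Vale.Agent.P366.pd_congr F.hf i, Vale.Agent.P366.pd_const]

/-- the metric at far points -/
lemma FarPt.g (hS : IsSlice C lam V f D) (F : FarPt C f D G y x s) (i j : Fin n) :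
    D.g y i j = kd i j + V0 V y * pd i lam y * pd j lam y := by
  have hF := F.hF.le
  rw [hS.met _ hF, indG_eq (lam_diff hS hF) (f_diff hS hF), F.hf.self_of_nhds]
  simp only [F.pdf]
  unfold V0
  ring

lemma FarPt.one_add_pos (hS : IsSlice C lam V f D) (F : FarPt C f D G y x s) :
    0 < 1 + V0 V y := by
  have h := det_indG_pos hS F.hF.le
  have h1 : dL lam f y = 0 := by
    unfold dL
    simp [F.pdf]
  simp only [F.pdf, h1, F.hf.self_of_nhds] at h
  unfold V0
  simpa using h

lemma FarPt.nn (hS : IsSlice C lam V f D) (F : FarPt C f D G y x s) :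
    ∑ i, pd i lam y ^ 2 = 1 := gsq_lam' hS F.hF.le

/-- `V` from the metric -/
lemma FarPt.V_eq (hS : IsSlice C lam V f D) (F : FarPt C f D G y x s) :
    V0 V y = ∑ i, ∑ j, (D.g y i j - kd i j) * (pd i lam y * pd j lam y) := by
  have h := F.nn hS
  have e : ∑ i, ∑ j, (D.g y i j - kd i j) * (pd i lam y * pd j lam y) =
      V0 V y * ((∑ i, pd i lam y ^ 2) * (∑ j, pd j lam y ^ 2)) := by
    rw [Finset.sum_mul_sum, Finset.mul_sum]
    refine Finset.sum_congr rfl fun i _ => ?_
    rw [Finset.mul_sum]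
    refine Finset.sum_congr rfl fun j _ => ?_
    rw [F.g hS]; ring
  rw [e, h]; ring

/-- far points form an open set -/
lemma far_open {R : ℝ} (hy : R < ‖y‖) : ∀ᶠ z in 𝓝 y, R < ‖z‖ :=
  (isOpen_lt continuous_const continuous_norm).mem_nhds hy

lemma FarPt.pd_lam (hS : IsSlice C lam V f D) (F : FarPt C f D G y x s) (i : Fin n) :
    pd i lam y = x i := by rw [← F.hY, pd_lam_Y hS F.hx F.hU.le]

lemma FarPt.lam_eq (hS : IsSlice C lam V f D) (F : FarPt C f D G y x s) : lam y = s := by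
  rw [← F.hY, lam_Y hS F.hx F.hU.le]

lemma FarPt.hs_n (hS : IsSlice C lam V f D) (F : FarPt C f D G y x s) (i : Fin n) :
    ∑ k, H353.N.hs lam i k y * pd k lam y = 0 := by
  have h := hs_lam_mul_x hS F.hx F.hU.le i
  rw [F.hY] at h
  rw [← h]
  exact Finset.sum_congr rfl fun k _ => by rw [F.pd_lam hS]

lemma FarPt.hs_symm (hS : IsSlice C lam V f D) (F : FarPt C f D G y x s) (i j : Fin n) :
    H353.N.hs lam i j y = H353.N.hs lam j i y := hs_symm_at (hS.smL y F.hF.le) i j

/-- the derivative of `V` from the metric -/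
lemma FarPt.dV_eq (hS : IsSlice C lam V f D) {R : ℝ}
    (hfar : ∀ y : E n, R < ‖y‖ → ∃ x s, FarPt C f D G y x s) (hy : R < ‖y‖) (k : Fin n) :
    pd k (V0 V) y = ∑ i, ∑ j, pd k (fun z => D.g z i j) y * (pd i lam y * pd j lam y) := by
  obtain ⟨x, s, F⟩ := hfar y hy
  have h1 : V0 V =ᶠ[𝓝 y] fun z => ∑ i, ∑ j, (D.g z i j - kd i j) * (pd i lam z * pd j lam z) := by
    filter_upwards [far_open hy] with z hz
    obtain ⟨x', s', F'⟩ := hfar z hz
    exact F'.V_eq hS
  rw [Vale.Agent.P366.pd_congr h1 k]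
  have hlam := hS.smL y F.hF.le
  have dn : ∀ i, DifferentiableAt ℝ (pd i lam) y := fun i =>
    (pd_contDiffAt hlam i).differentiableAt (by simp)
  have dg : ∀ i j, DifferentiableAt ℝ (fun z => D.g z i j) y := fun i j =>
    ((D.smooth i j).1.contDiffAt).differentiableAt (by simp)
  have dgk : ∀ i j, DifferentiableAt ℝ (fun z => D.g z i j - kd i j) y := fun i j =>
    (dg i j).sub (differentiableAt_const _)
  have e1 : ∀ i j, pd k (fun z => (D.g z i j - kd i j) * (pd i lam z * pd j lam z)) y =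
      pd k (fun z => D.g z i j) y * (pd i lam y * pd j lam y) +
      (D.g y i j - kd i j) *
        (H353.N.hs lam k i y * pd j lam y + pd i lam y * H353.N.hs lam k j y) := by
    intro i j
    have dnn : DifferentiableAt ℝ (fun z => pd i lam z * pd j lam z) y := (dn i).mul (dn j)
    rw [Vale.Agent.P366.pd_mul (dgk i j) dnn, Vale.Agent.P366.pd_mul (dn i) (dn j),
      Vale.Agent.P366.pd_sub (dg i j) (differentiableAt_const _), Vale.Agent.P366.pd_const]
    unfold H353.N.hs
    ring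
  have dterm : ∀ i j, DifferentiableAt ℝ
      (fun z => (D.g z i j - kd i j) * (pd i lam z * pd j lam z)) y := fun i j =>
    (dgk i j).mul ((dn i).mul (dn j))
  have dsum : ∀ i, DifferentiableAt ℝ
      (fun z => ∑ j, (D.g z i j - kd i j) * (pd i lam z * pd j lam z)) y := fun i =>
    DifferentiableAt.fun_sum fun j _ => dterm i j
  rw [Vale.Agent.P366.pd_sum _ (fun i _ => dsum i) k]
  have e2 : ∀ i, pd k (fun z => ∑ j, (D.g z i j - kd i j) * (pd i lam z * pd j lam z)) y =
      ∑ j, (pd k (fun z => D.g z i j) y * (pd i lam y * pd j lam y) +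
      (D.g y i j - kd i j) *
        (H353.N.hs lam k i y * pd j lam y + pd i lam y * H353.N.hs lam k j y)) := by
    intro i
    rw [Vale.Agent.P366.pd_sum _ (fun j _ => dterm i j) k]
    exact Finset.sum_congr rfl fun j _ => e1 i j
  simp only [e2, Finset.sum_add_distrib]
  have e3 : ∑ i, ∑ j, (D.g y i j - kd i j) *
      (H353.N.hs lam k i y * pd j lam y + pd i lam y * H353.N.hs lam k j y) = 0 := by
    have h2 := F.hs_n hS k
    have e4 : ∀ i, ∑ j, (D.g y i j - kd i j) *
      (H353.N.hs lam k i y * pd j lam y + pd i lam y * H353.N.hs lam k j y) =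
      V0 V y * ((H353.N.hs lam k i y * pd i lam y) * (∑ j, pd j lam y ^ 2) +
        pd i lam y ^ 2 * (∑ j, H353.N.hs lam k j y * pd j lam y)) := by
      intro i
      rw [Finset.mul_sum, Finset.mul_sum, ← Finset.sum_add_distrib, Finset.mul_sum]
      refine Finset.sum_congr rfl fun j _ => ?_
      rw [F.g hS]; ring
    simp only [e4, h2, F.nn hS, mul_one, mul_zero, add_zero, ← Finset.mul_sum]
  rw [e3, add_zero]

lemma BO_V (hS : IsSlice C lam V f D) {q : ℝ}
    (hg : ∀ i j, Stmt.BigO q (fun x => D.g x i j - if i = j then 1 else 0)) : BO q (V0 V) := by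
  obtain ⟨G, R, hG1, hR1, hG, hH, hfar⟩ := exists_farPt hS
  have h1 : BO q fun y => ∑ i, ∑ j, (pd i lam y * pd j lam y) * (D.g y i j - kd i j) :=
    BO.sum _ fun i => BO.sum _ fun j => by
      have h2 : BO 0 fun y => pd i lam y * pd j lam y := by
        have := (BO_n hS i).mul (BO_n hS j)
        rwa [zero_add] at this
      exact h2.bmul (BO.of_bigO (hg i j))
  refine h1.congr (R := R) fun y hy => ?_
  obtain ⟨x, s, F⟩ := hfar y hy
  rw [F.V_eq hS]
  exact Finset.sum_congr rfl fun i _ => Finset.sum_congr rfl fun j _ => mul_comm _ _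

lemma BO_dV (hS : IsSlice C lam V f D) {q : ℝ}
    (hg : ∀ i j k, Stmt.BigO (q + 1) (Stmt.pd k fun x => D.g x i j)) (k : Fin n) :
    BO (q + 1) (pd k (V0 V)) := by
  obtain ⟨G, R, hG1, hR1, hG, hH, hfar⟩ := exists_farPt hS
  have h1 : BO (q + 1) fun y => ∑ i, ∑ j, (pd i lam y * pd j lam y) *
      Stmt.pd k (fun z => D.g z i j) y :=
    BO.sum _ fun i => BO.sum _ fun j => by
      have h2 : BO 0 fun y => pd i lam y * pd j lam y := by
        have := (BO_n hS i).mul (BO_n hS j)
        rwa [zero_add] at this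
      exact h2.bmul (BO.of_bigO (hg i j k))
  refine h1.congr (R := R) fun y hy => ?_
  rw [FarPt.dV_eq hS hfar hy k]
  refine Finset.sum_congr rfl fun i _ => Finset.sum_congr rfl fun j _ => ?_
  rw [Vale.Agent.P366.Bridge.pd_eq (((D.smooth i j).1.contDiffAt).differentiableAt (by simp))]
  exact mul_comm _ _

/-- orders of decay from asymptotic flatness -/
lemma exists_order (hS : IsSlice C lam V f D) (hAF : D.IsAF) : ∃ q : ℝ, (n : ℝ) / 2 - 1 < q ∧
    BO q (V0 V) ∧ (∀ k, BO (q + 1) (pd k (V0 V))) ∧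
    (∀ i j, BO q fun x => D.g x i j - kd i j) ∧ ∀ i j, BO (q + 1) fun x => D.K x i j := by
  obtain ⟨q, hq, h⟩ := hAF
  rcases Nat.eq_zero_or_pos n with h0 | h0
  · subst h0
    refine ⟨q, hq, ?_, fun k => k.elim0, fun i => i.elim0, fun i => i.elim0⟩
    exact BO_V hS fun i => i.elim0
  · have k0 : Fin n := ⟨0, h0⟩
    refine ⟨q, hq, BO_V hS fun i j => (h i j k0 k0).1, fun k =>
      BO_dV hS (fun i j k => (h i j k k0).2.1) k, fun i j => BO.of_bigO (h i j k0 k0).1,
      fun i j => BO.of_bigO (h i j k0 k0).2.2.2.1⟩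

end Vale.Agent.P366.KSN
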