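import Vale.Agent.P366.H474.N.FarC
import Vale.Agent.P366.H375.N.X2d

/-! Kerr-Schild exteriors, all dimensions: `K` and the momentum tensor far out. -/

open MeasureTheory Metric Filter Topology Set
open scoped ContDiff ENNReal

noncomputable section
namespace Vale.Agent.P366.KSN

open Vale.Agent.P366 (pd E sphM)
open Vale.Agent.P366.H353.N
open Vale.Agent.P366.Kerr (NullCone IsSlice Region Psi pt sp nul ksG indG indK DECat lapse)
open X5 (dn Fe Pi)

variable {n : ℕ} {C : NullCone n} {lam f : E n → ℝ} {V : E (n + 1) → ℝ} {D : Stmt.Exterior n}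
  {x y z : E n} {s t G : ℝ}

/-- `Stmt.pd` of `f` vanishes at far points -/
lemma FarPt.spdf (F : FarPt C f D G y x s) (i : Fin n) : Stmt.pd i f y = 0 := by
  have h1 : Stmt.pd i f y = Stmt.pd i (fun _ => 0) y := F.hf.lineDeriv_eq
  rw [h1]
  have := Vale.Agent.P366.Bridge.pd_eq (differentiableAt_const (0 : ℝ) (x := y)) i
  rw [this, Vale.Agent.P366.pd_const]

lemma FarPt.spd2f (F : FarPt C f D G y x s) (i j : Fin n) : Stmt.pd i (Stmt.pd j f) y = 0 := by
  have h1 : Stmt.pd j f =ᶠ[𝓝 y] fun _ => 0 := by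
    filter_upwards [F.hf.eventuallyEq_nhds] with z hz
    have h2 : Stmt.pd j f z = Stmt.pd j (fun _ => 0) z := hz.lineDeriv_eq
    rw [h2, Vale.Agent.P366.Bridge.pd_eq (differentiableAt_const (0 : ℝ) (x := z)) j,
      Vale.Agent.P366.pd_const]
  have h2 : Stmt.pd i (Stmt.pd j f) y = Stmt.pd i (fun _ => 0) y := h1.lineDeriv_eq
  rw [h2, Vale.Agent.P366.Bridge.pd_eq (differentiableAt_const (0 : ℝ) (x := y)) i,
    Vale.Agent.P366.pd_const]

lemma FarPt.nn' (hS : IsSlice C lam V f D) (F : FarPt C f D G y x s) :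
    ∑ i, pd i lam y * pd i lam y = 1 := by
  rw [← F.nn hS]
  exact Finset.sum_congr rfl fun i _ => (pow_two _).symm

/-- the linear part of `K` -/
def K0 (lam v vt : E n → ℝ) (i j : Fin n) (y : E n) : ℝ :=
  -(pd i v y * pd j lam y + pd j v y * pd i lam y) / 2 - v y * hs lam i j y +
    vt y * pd i lam y * pd j lam y / 2

/-- the second fundamental form at far points -/
lemma FarPt.K_eq (hS : IsSlice C lam V f D) (hVy : ContDiffAt ℝ ∞ V (pt 0 y))
    (F : FarPt C f D G y x s) (i j : Fin n) :
    D.K y i j = 1 / √(1 + V0 V y) * (K0 lam (V0 V) (Vt V) i j y -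
      V0 V y * (dn lam (V0 V) y - Vt V y) / 2 * (pd i lam y * pd j lam y)) := by
  have hF := F.hF.le
  have hl := hS.smL y hF
  have hf0 : f y = 0 := F.hf.self_of_nhds
  have hlp : ∀ i, Stmt.pd i lam y = pd i lam y := fun i => X2.stmt_pd' hl i
  have hlp2 : ∀ i j, Stmt.pd i (Stmt.pd j lam) y = hs lam i j y := fun i j => X2.stmt_pd2 hl i j
  rw [hS.sff _ hF, X2.indK_eq hl (F.nn hS) (by rw [hf0]; exact hVy),
    X2.lapse_eq V f (by simp only [hlp]; exact F.nn' hS)]
  simp only [F.spdf, F.spd2f, hf0, hlp, hlp2, X2.cot, mul_zero, zero_mul, zero_add, add_zero,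
    Finset.sum_const_zero, sub_zero, one_pow, mul_one]
  have e1 : ∀ i : Fin n, pd i.succ V (pt 0 y) = pd i (V0 V) y := fun i =>
    (pd_V0 (hVy.differentiableAt (by simp)) i).symm
  simp only [e1]
  unfold K0 dn V0 Vt
  ring

/-- contraction of the linear part with the normal -/
lemma FarPt.K0_nn (hS : IsSlice C lam V f D) (F : FarPt C f D G y x s) (v vt : E n → ℝ) :
    ∑ i, ∑ j, K0 lam v vt i j y * (pd i lam y * pd j lam y) = - dn lam v y + vt y / 2 := by
  have h1 := F.nn' hS
  have h2 : ∀ i, ∑ j, K0 lam v vt i j y * (pd i lam y * pd j lam y) =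
      -(pd i lam y * pd i v y) / 2 * (∑ j, pd j lam y * pd j lam y) -
        (pd i lam y * pd i lam y) * (∑ j, pd j lam y * pd j v y) / 2 -
        v y * pd i lam y * (∑ j, hs lam i j y * pd j lam y) +
        vt y / 2 * (pd i lam y * pd i lam y) * (∑ j, pd j lam y * pd j lam y) := by
    intro i
    simp only [Finset.mul_sum, Finset.sum_div]
    rw [← Finset.sum_sub_distrib, ← Finset.sum_sub_distrib, ← Finset.sum_add_distrib]
    refine Finset.sum_congr rfl fun j _ => ?_
    unfold K0
    ring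
  simp only [h2, h1, F.hs_n hS, mul_one, mul_zero, sub_zero]
  rw [Finset.sum_add_distrib, Finset.sum_sub_distrib, ← Finset.mul_sum, h1, ← Finset.sum_div,
    ← Finset.sum_div, ← Finset.sum_mul, h1, Finset.sum_neg_distrib]
  unfold dn
  ring

/-- trace of the linear part -/
lemma FarPt.K0_tr (hS : IsSlice C lam V f D) (F : FarPt C f D G y x s) (v vt : E n → ℝ) :
    ∑ i, K0 lam v vt i i y = - dn lam v y - v y * lap lam y + vt y / 2 := by
  have h1 := F.nn' hS
  have h2 : ∀ i, K0 lam v vt i i y = -(pd i lam y * pd i v y) - v y * hs lam i i y +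
      vt y / 2 * (pd i lam y * pd i lam y) := by
    intro i
    unfold K0
    ring
  simp only [h2]
  rw [Finset.sum_add_distrib, Finset.sum_sub_distrib, ← Finset.mul_sum, ← Finset.mul_sum, h1,
    Finset.sum_neg_distrib]
  unfold dn lap
  ring

/-- the flux field in terms of the linear part -/
lemma FarPt.Pi_eq (hS : IsSlice C lam V f D) (F : FarPt C f D G y x s) (v vt : E n → ℝ)
    (i j : Fin n) : Pi lam v vt i j y = K0 lam v vt i j y - (∑ k, K0 lam v vt k k y) * kd i j := by
  rw [F.K0_tr hS]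
  unfold Pi K0
  ring

/-- the inverse metric at far points -/
lemma FarPt.up_eq (hS : IsSlice C lam V f D) (F : FarPt C f D G y x s) (i j : Fin n) :
    Stmt.up D.g i j y = kd i j - V0 V y / (1 + V0 V y) * (pd i lam y * pd j lam y) := by
  have hp := (F.one_add_pos hS).ne'
  have h1 := F.nn' hS
  have e : Stmt.mat D.g y * (Matrix.of fun i j =>
      kd i j - V0 V y / (1 + V0 V y) * (pd i lam y * pd j lam y)) = 1 := by
    ext i k
    rw [Matrix.mul_apply, Matrix.one_apply]
    simp only [Matrix.of_apply, Stmt.mat, F.g hS]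
    have h2 : ∀ j, (kd i j + V0 V y * pd i lam y * pd j lam y) *
        (kd j k - V0 V y / (1 + V0 V y) * (pd j lam y * pd k lam y)) =
        kd i j * kd j k - kd i j * (V0 V y / (1 + V0 V y) * (pd j lam y * pd k lam y)) +
        kd j k * (V0 V y * pd i lam y * pd j lam y) -
        V0 V y * (V0 V y / (1 + V0 V y)) * pd i lam y * pd k lam y * (pd j lam y * pd j lam y) := by
      intro j
      ring
    simp only [h2, Finset.sum_add_distrib, Finset.sum_sub_distrib, ← Finset.mul_sum, h1]
    have e3 : ∑ j, kd i j * kd j k = kd i k := by simp [kd]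
    have e4 : ∑ j, kd i j * (V0 V y / (1 + V0 V y) * (pd j lam y * pd k lam y)) =
        V0 V y / (1 + V0 V y) * (pd i lam y * pd k lam y) := by simp [kd]
    have e5 : ∑ j, kd j k * (V0 V y * pd i lam y * pd j lam y) =
        V0 V y * pd i lam y * pd k lam y := by simp [kd]
    rw [e3, e4, e5]
    unfold kd
    field_simp
    ring
  unfold Stmt.up
  rw [Matrix.inv_eq_right_inv e, Matrix.of_apply]

/-- the trace of `K` at far points -/
lemma FarPt.tr_eq (hS : IsSlice C lam V f D) (F : FarPt C f D G y x s) :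
    Stmt.tr D.g D.K y = ∑ i, D.K y i i -
      V0 V y / (1 + V0 V y) * ∑ i, ∑ j, D.K y i j * (pd i lam y * pd j lam y) := by
  unfold Stmt.tr
  simp only [F.up_eq hS]
  have h : ∀ i, ∑ j, (kd i j - V0 V y / (1 + V0 V y) * (pd i lam y * pd j lam y)) * D.K y i j =
      D.K y i i - V0 V y / (1 + V0 V y) * ∑ j, D.K y i j * (pd i lam y * pd j lam y) := by
    intro i
    simp only [sub_mul, Finset.sum_sub_distrib, Finset.mul_sum]
    congr 1
    · simp [kd]
    · exact Finset.sum_congr rfl fun j _ => by ring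
  simp only [h, Finset.sum_sub_distrib, ← Finset.mul_sum]

/-- the energy flux field, exactly -/
lemma FarPt.energy_field (hS : IsSlice C lam V f D) {R : ℝ}
    (hV : ContDiffAt ℝ ∞ V (pt 0 y))
    (hfar : ∀ y : E n, R < ‖y‖ → ∃ x s, FarPt C f D G y x s) (hy : R < ‖y‖) (i : Fin n) :
    (∑ j, (Stmt.pd j (fun z => D.g z i j) y - Stmt.pd i (fun z => D.g z j j) y)) / 2 =
      Fe lam (V0 V) i y := by
  obtain ⟨x, s, F⟩ := hfar y hy
  have hlam := hS.smL y F.hF.le
  have dn' : ∀ i, DifferentiableAt ℝ (pd i lam) y := fun i =>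
    (pd_contDiffAt hlam i).differentiableAt (by simp)
  have dV : DifferentiableAt ℝ (V0 V) y := (V0_cd hV).differentiableAt (by simp)
  have key : ∀ k a b, Stmt.pd k (fun z => D.g z a b) y =
      pd k (V0 V) y * (pd a lam y * pd b lam y) +
        V0 V y * (hs lam k a y * pd b lam y + pd a lam y * hs lam k b y) := by
    intro k a b
    rw [Vale.Agent.P366.Bridge.pd_eq (((D.smooth a b).1.contDiffAt).differentiableAt (by simp))]
    have h1 : (fun z => D.g z a b) =ᶠ[𝓝 y] fun z => kd a b + V0 V z * (pd a lam z * pd b lam z) := by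
      filter_upwards [far_open hy] with z hz
      obtain ⟨x', s', F'⟩ := hfar z hz
      rw [F'.g hS]; ring
    have dnn : DifferentiableAt ℝ (fun z => pd a lam z * pd b lam z) y := (dn' a).mul (dn' b)
    have dvn : DifferentiableAt ℝ (fun z => V0 V z * (pd a lam z * pd b lam z)) y := dV.mul dnn
    rw [Vale.Agent.P366.pd_congr h1 k,
      Vale.Agent.P366.pd_add (differentiableAt_const _) dvn, Vale.Agent.P366.pd_const,
      Vale.Agent.P366.pd_mul dV dnn, Vale.Agent.P366.pd_mul (dn' a) (dn' b)]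
    unfold H353.N.hs
    ring
  simp only [key]
  have h1 := F.nn' hS
  have h2 := F.hs_n hS i
  have h3 : ∑ j, hs lam j i y * pd j lam y = 0 := by
    rw [← h2]
    exact Finset.sum_congr rfl fun j _ => by rw [F.hs_symm hS j i]
  have e : ∑ j, (pd j (V0 V) y * (pd i lam y * pd j lam y) +
        V0 V y * (hs lam j i y * pd j lam y + pd i lam y * hs lam j j y) -
      (pd i (V0 V) y * (pd j lam y * pd j lam y) +
        V0 V y * (hs lam i j y * pd j lam y + pd j lam y * hs lam i j y))) =
      pd i lam y * (∑ j, pd j lam y * pd j (V0 V) y) +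
        V0 V y * (∑ j, hs lam j i y * pd j lam y) + V0 V y * pd i lam y * (∑ j, hs lam j j y) -
        pd i (V0 V) y * (∑ j, pd j lam y * pd j lam y) -
        2 * V0 V y * (∑ j, hs lam i j y * pd j lam y) := by
    simp only [Finset.mul_sum]
    rw [← Finset.sum_add_distrib, ← Finset.sum_add_distrib, ← Finset.sum_sub_distrib,
      ← Finset.sum_sub_distrib]
    exact Finset.sum_congr rfl fun j _ => by ring
  rw [e, h1, h2, h3]
  unfold Fe dn lap
  ring

end Vale.Agent.P366.KSN
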